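import Crest.Agent.N250.Re.Comm
import Crest.Agent.N250.Master

-- ▼ part N250/Po/Par
section

/-!
# Row 250, parametrised pieces of a slice (helper27)

`X : ℝ × ℝ → E` parametrises a piece of the slice `t` near `q`: first and second derivatives of
functions, second fundamental form, traces.
-/

set_option autoImplicit false
open MeasureTheory Set Filter Topology Function
open scoped ContDiff InnerProductSpace
open Crest.GeometryTopology.MCF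

noncomputable section

namespace Crest.Agent.N250.Po

/-- derivative in the first variable -/
def d1 {G : Type} [NormedAddCommGroup G] [NormedSpace ℝ G] (g : ℝ × ℝ → G) (q : ℝ × ℝ) : G :=
  fderiv ℝ g q (1, 0)

/-- derivative in the second variable -/
def d2 {G : Type} [NormedAddCommGroup G] [NormedSpace ℝ G] (g : ℝ × ℝ → G) (q : ℝ × ℝ) : G :=
  fderiv ℝ g q (0, 1)

/-! ### linear algebra -/

/-- the projection in terms of a basis of the plane -/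
theorem proj_eq (x y n : E) (hn : ⟪n, n⟫_ℝ = 1) (hx : ⟪n, x⟫_ℝ = 0) (hy : ⟪n, y⟫_ℝ = 0)
    (a b : Fin 3) :
    (⟪x, x⟫_ℝ * ⟪y, y⟫_ℝ - ⟪x, y⟫_ℝ ^ 2) * ((if a = b then 1 else 0) - n a * n b) =
      ⟪y, y⟫_ℝ * (x a * x b) - ⟪x, y⟫_ℝ * (x a * y b + y a * x b) + ⟪x, x⟫_ℝ * (y a * y b) := by
  simp only [inner_eq_sum, Fin.sum_univ_three] at *
  obtain ⟨s, hs⟩ : ∃ s, s = (x 1 * y 2 - x 2 * y 1) * n 0 + (x 2 * y 0 - x 0 * y 2) * n 1 +
    (x 0 * y 1 - x 1 * y 0) * n 2 := ⟨_, rfl⟩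
  have h0 : x 1 * y 2 - x 2 * y 1 = s * n 0 := by
    rw [hs]
    linear_combination (-(x 1 * y 2 - x 2 * y 1)) * hn - (n 1 * x 2 - n 2 * x 1) * hy +
      (n 1 * y 2 - n 2 * y 1) * hx
  have h1 : x 2 * y 0 - x 0 * y 2 = s * n 1 := by
    rw [hs]
    linear_combination (-(x 2 * y 0 - x 0 * y 2)) * hn - (n 2 * x 0 - n 0 * x 2) * hy +
      (n 2 * y 0 - n 0 * y 2) * hx
  have h2 : x 0 * y 1 - x 1 * y 0 = s * n 2 := by
    rw [hs]
    linear_combination (-(x 0 * y 1 - x 1 * y 0)) * hn - (n 0 * x 1 - n 1 * x 0) * hy +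
      (n 0 * y 1 - n 1 * y 0) * hx
  have h3 : (x 0 * x 0 + x 1 * x 1 + x 2 * x 2) * (y 0 * y 0 + y 1 * y 1 + y 2 * y 2) -
      (x 0 * y 0 + x 1 * y 1 + x 2 * y 2) ^ 2 = s ^ 2 := by
    linear_combination (x 1 * y 2 - x 2 * y 1 + s * n 0) * h0 +
      (x 2 * y 0 - x 0 * y 2 + s * n 1) * h1 + (x 0 * y 1 - x 1 * y 0 + s * n 2) * h2 + s ^ 2 * hn
  rw [mul_sub, h3]
  fin_cases a <;> fin_cases b <;> simp only [Fin.zero_eta, Fin.mk_one, Fin.reduceFinMk, Fin.isValue,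
    Fin.reduceEq, if_true, if_false]
  · linear_combination -h3 + (x 1 * y 2 - x 2 * y 1 + s * n 0) * h0
  · linear_combination (x 2 * y 0 - x 0 * y 2) * h0 + s * n 0 * h1
  · linear_combination (x 0 * y 1 - x 1 * y 0) * h0 + s * n 0 * h2
  · linear_combination (x 2 * y 0 - x 0 * y 2) * h0 + s * n 0 * h1
  · linear_combination -h3 + (x 2 * y 0 - x 0 * y 2 + s * n 1) * h1
  · linear_combination (x 0 * y 1 - x 1 * y 0) * h1 + s * n 1 * h2
  · linear_combination (x 0 * y 1 - x 1 * y 0) * h0 + s * n 0 * h2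
  · linear_combination (x 0 * y 1 - x 1 * y 0) * h1 + s * n 1 * h2
  · linear_combination -h3 + (x 0 * y 1 - x 1 * y 0 + s * n 2) * h2

/-- the bilinear form of a matrix -/
def bf (T : Fin 3 → Fin 3 → ℝ) (u w : E) : ℝ := ∑ a, ∑ b, T a b * (u a * w b)

theorem trace_eq (x y n : E) (hn : ⟪n, n⟫_ℝ = 1) (hx : ⟪n, x⟫_ℝ = 0) (hy : ⟪n, y⟫_ℝ = 0)
    (T : Fin 3 → Fin 3 → ℝ) (hT : ∀ b, ∑ a, n a * T a b = 0) :
    (⟪x, x⟫_ℝ * ⟪y, y⟫_ℝ - ⟪x, y⟫_ℝ ^ 2) * ∑ a, T a a =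
      ⟪y, y⟫_ℝ * bf T x x - ⟪x, y⟫_ℝ * (bf T x y + bf T y x) + ⟪x, x⟫_ℝ * bf T y y := by
  have h1 : ∑ a, T a a = ∑ a, ∑ b, T a b * ((if a = b then 1 else 0) - n a * n b) := by
    have h2 : ∑ a, ∑ b, T a b * (n a * n b) = 0 := by
      rw [Finset.sum_comm]
      refine Finset.sum_eq_zero fun b _ => ?_
      rw [← zero_mul (n b), ← hT b, Finset.sum_mul]
      exact Finset.sum_congr rfl fun a _ => by ring
    simp [mul_sub, h2]
  rw [h1]
  simp only [Finset.mul_sum, mul_left_comm _ (T _ _), proj_eq x y n hn hx hy, bf,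
    ← Finset.sum_add_distrib, ← Finset.sum_sub_distrib]
  exact Finset.sum_congr rfl fun a _ => Finset.sum_congr rfl fun b _ => by ring

theorem vec_eq (x y n : E) (hn : ⟪n, n⟫_ℝ = 1) (hx : ⟪n, x⟫_ℝ = 0) (hy : ⟪n, y⟫_ℝ = 0)
    (V : Fin 3 → ℝ) (hV : ∑ a, n a * V a = 0) (b : Fin 3) :
    (⟪x, x⟫_ℝ * ⟪y, y⟫_ℝ - ⟪x, y⟫_ℝ ^ 2) * V b =
      (⟪y, y⟫_ℝ * ∑ a, x a * V a - ⟪x, y⟫_ℝ * ∑ a, y a * V a) * x b +
        (⟪x, x⟫_ℝ * ∑ a, y a * V a - ⟪x, y⟫_ℝ * ∑ a, x a * V a) * y b := by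
  have h1 : V b = ∑ a, V a * ((if a = b then 1 else 0) - n a * n b) := by
    have h2 : ∑ a, V a * (n a * n b) = 0 := by
      rw [← zero_mul (n b), ← hV, Finset.sum_mul]
      exact Finset.sum_congr rfl fun a _ => by ring
    simp [mul_sub, h2]
  rw [h1]
  simp only [Finset.mul_sum, mul_left_comm _ (V _), proj_eq x y n hn hx hy]
  simp only [Fin.sum_univ_three]
  ring

/-- a normal vector is a multiple of the unit normal -/
theorem nor_eq (x y n N : E) (hn : ⟪n, n⟫_ℝ = 1) (hx : ⟪n, x⟫_ℝ = 0) (hy : ⟪n, y⟫_ℝ = 0)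
    (hx' : ⟪x, N⟫_ℝ = 0) (hy' : ⟪y, N⟫_ℝ = 0) (hd : ⟪x, x⟫_ℝ * ⟪y, y⟫_ℝ - ⟪x, y⟫_ℝ ^ 2 ≠ 0) :
    N = ⟪n, N⟫_ℝ • n := by
  ext b
  have h := vec_eq x y n hn hx hy (fun a => N a - ⟪n, N⟫_ℝ * n a) (by
    simp only [mul_sub, Finset.sum_sub_distrib, mul_left_comm _ ⟪n, N⟫_ℝ, ← Finset.mul_sum,
      ← inner_eq_sum, hn]; ring) b
  rw [real_inner_comm] at hx hy
  simp only [mul_sub (x _), mul_sub (y _), Finset.sum_sub_distrib, mul_left_comm _ ⟪n, N⟫_ℝ,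
    ← Finset.mul_sum, ← inner_eq_sum, hx, hy, hx', hy', mul_zero, sub_zero, zero_mul,
    add_zero] at h
  have := (mul_eq_zero.1 h).resolve_left hd
  simpa [sub_eq_zero] using this

/-! ### parametrisations -/

/-- `X` parametrises a piece of the slice `t` near `q` -/
structure Par (F : Mv) (t : ℝ) (X : ℝ × ℝ → E) (q : ℝ × ℝ) : Prop where
  reg : F.Reg
  sm : ContDiffAt ℝ 2 X q
  mem : ∀ᶠ y in 𝓝 q, (X y, t) ∈ F.M

namespace Par

variable {F : Mv} {t : ℝ} {X : ℝ × ℝ → E} {q : ℝ × ℝ} (h : Par F t X q)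
include h

theorem ev : ∀ᶠ y in 𝓝 q, Par F t X y := by
  filter_upwards [h.sm.eventually (by simp), h.mem.eventually_nhds] with y h1 h2
  exact ⟨h.reg, h1, h2⟩

theorem memM : (X q, t) ∈ F.M := h.mem.self_of_nhds

theorem hasX : HasFDerivAt X (fderiv ℝ X q) q := (h.sm.differentiableAt (by simp)).hasFDerivAt

theorem hasP : HasFDerivAt (fun y => ((X y, t) : ST)) ((fderiv ℝ X q).prod 0) q :=
  h.hasX.prodMk (hasFDerivAt_const t q)

theorem diffX (w : ℝ × ℝ) : DifferentiableAt ℝ (fun y => fderiv ℝ X y w) q :=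
  ((h.sm.fderiv_right (m := 1) le_rfl).differentiableAt one_ne_zero).clm_apply
    (differentiableAt_const w)

theorem perp (w : ℝ × ℝ) : ⟪F.n (X q, t), fderiv ℝ X q w⟫_ℝ = 0 := by
  obtain ⟨W, φ, hW, k⟩ := h.reg _ h.memM
  have h1 := HasFDerivAt.comp (g := φ) (f := fun y => ((X y, t) : ST)) q (k.diffAt hW).hasFDerivAt
    h.hasP
  have h2 : HasFDerivAt (φ ∘ fun y => ((X y, t) : ST)) (0 : ℝ × ℝ →L[ℝ] ℝ) q := by
    refine (hasFDerivAt_const (0 : ℝ) q).congr_of_eventuallyEq ?_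
    filter_upwards [h.mem, h.hasP.continuousAt.eventually_mem (k.isOpen.mem_nhds hW)] with y a b
    exact (k.mem _ b).1 a
  have h3 := congrArg (fun T : ℝ × ℝ →L[ℝ] ℝ => T w) (h1.unique h2)
  have h4 : F.Tg (X q, t) (fderiv ℝ X q w, 0) := (k.tg_iff hW h.memM).2 h3
  simpa [Mv.Tg] using h4

theorem hasF {G : Type} [NormedAddCommGroup G] [NormedSpace ℝ G] {f : ST → G}
    (hf : DifferentiableWithinAt ℝ f F.M (X q, t)) :
    HasFDerivAt (fun y => f (X y, t)) ((F.td f (X q, t)).comp ((fderiv ℝ X q).prod 0)) q :=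
  hf.hasFDerivWithinAt.comp_hasFDerivAt q h.hasP h.mem

theorem cd {G : Type} [NormedAddCommGroup G] [NormedSpace ℝ G] {f : ST → G} (hf : F.Sm f) :
    ContDiffAt ℝ 2 (fun y => f (X y, t)) q :=
  (ContDiffWithinAt.comp (f := fun y => ((X y, t) : ST)) (s := {y | (X y, t) ∈ F.M}) q
    ((hf _ h.memM).of_le (WithTop.coe_le_coe.2 (le_top (a := (2 : ℕ∞)))))
    (h.sm.prodMk contDiffAt_const).contDiffWithinAt fun _ hy => hy).contDiffAt h.mem

variable {f : ST → ℝ}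

/-- first derivatives -/
theorem fd (hf : DifferentiableWithinAt ℝ f F.M (X q, t)) (w : ℝ × ℝ) :
    fderiv ℝ (fun y => f (X y, t)) q w = ∑ a, fderiv ℝ X q w a * F.D a f (X q, t) := by
  rw [(h.hasF hf).fderiv, ← Mv.td_perp f (h.perp w)]
  rfl

/-- derivative of `∑ u_a(y) f_a(X y)` -/
theorem fd_sum {u : ℝ × ℝ → E} (hu : DifferentiableAt ℝ u q) {g : Fin 3 → ST → ℝ}
    (hg : ∀ a, F.Sm (g a)) (w : ℝ × ℝ) :
    fderiv ℝ (fun y => ∑ b, u y b * g b (X y, t)) q w =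
      bf (fun a b => F.D a (g b) (X q, t)) (fderiv ℝ X q w) (u q) +
        ∑ b, fderiv ℝ u q w b * g b (X q, t) := by
  have h1 : ∀ b, HasFDerivAt (fun y => u y b) ((EuclideanSpace.proj b).comp (fderiv ℝ u q)) q :=
    fun b => (EuclideanSpace.proj (𝕜 := ℝ) b).hasFDerivAt.comp q hu.hasFDerivAt
  have h2 : ∀ b, HasFDerivAt (fun y => g b (X y, t)) (fderiv ℝ (fun y => g b (X y, t)) q) q :=
    fun b => (h.hasF ((hg b).diffW h.memM)).differentiableAt.hasFDerivAt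
  rw [(HasFDerivAt.fun_sum fun b (_ : b ∈ Finset.univ) => (h1 b).fun_mul (h2 b)).fderiv]
  simp only [sum_apply, add_apply, smul_apply, h.fd ((hg _).diffW h.memM), smul_eq_mul,
    ContinuousLinearMap.comp_apply, Finset.sum_add_distrib, bf, Finset.mul_sum]
  congr 1
  · rw [Finset.sum_comm]
    exact Finset.sum_congr rfl fun a _ => Finset.sum_congr rfl fun b _ => by ring
  · exact Finset.sum_congr rfl fun b _ => mul_comm _ _

/-- second derivatives -/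
theorem fd2 (hf : F.Sm f) (w' w : ℝ × ℝ) :
    fderiv ℝ (fun z => fderiv ℝ (fun y => f (X y, t)) z w) q w' =
      bf (fun a b => F.D a (F.D b f) (X q, t)) (fderiv ℝ X q w') (fderiv ℝ X q w) +
        ∑ b, fderiv ℝ (fun z => fderiv ℝ X z w) q w' b * F.D b f (X q, t) := by
  rw [← h.fd_sum (h.diffX w) (fun b => h.reg.sm_D hf b)]
  refine congrArg (fun T : ℝ × ℝ →L[ℝ] ℝ => T w') (EventuallyEq.fderiv_eq ?_)
  filter_upwards [h.ev] with y hy
  exact hy.fd (hf.diffW hy.memM) w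

/-- the second fundamental form -/
theorem A_eq (w' w : ℝ × ℝ) : bf (fun a b => F.A a b (X q, t)) (fderiv ℝ X q w') (fderiv ℝ X q w) =
    -⟪F.n (X q, t), fderiv ℝ (fun z => fderiv ℝ X z w) q w'⟫_ℝ := by
  have h1 := h.fd_sum (h.diffX w) (fun b => h.reg.sm_nu b) w'
  have h2 : (fun y => ∑ b, fderiv ℝ X y w b * F.nu b (X y, t)) =ᶠ[𝓝 q] fun _ => 0 := by
    filter_upwards [h.ev] with y hy
    rw [← hy.perp w, real_inner_comm, inner_eq_sum]
    rfl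
  rw [h2.fderiv_eq, fderiv_fun_const] at h1
  rw [real_inner_comm, inner_eq_sum]
  exact eq_neg_of_add_eq_zero_left h1.symm

/-- the determinant of the metric -/
def _root_.Crest.Agent.N250.Po.det (X : ℝ × ℝ → E) (q : ℝ × ℝ) : ℝ :=
  ⟪d1 X q, d1 X q⟫_ℝ * ⟪d2 X q, d2 X q⟫_ℝ - ⟪d1 X q, d2 X q⟫_ℝ ^ 2

theorem tr (T : Fin 3 → Fin 3 → ℝ) (hT : ∀ b, ∑ a, F.nu a (X q, t) * T a b = 0) :
    det X q * ∑ a, T a a = ⟪d2 X q, d2 X q⟫_ℝ * bf T (d1 X q) (d1 X q) -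
      ⟪d1 X q, d2 X q⟫_ℝ * (bf T (d1 X q) (d2 X q) + bf T (d2 X q) (d1 X q)) +
        ⟪d1 X q, d1 X q⟫_ℝ * bf T (d2 X q) (d2 X q) :=
  trace_eq _ _ _ (h.reg.inner_n h.memM) (h.perp _) (h.perp _) T hT

/-- mean curvature -/
theorem H_eq : det X q * F.H (X q, t) =
    -(⟪d2 X q, d2 X q⟫_ℝ * ⟪F.n (X q, t), d1 (d1 X) q⟫_ℝ -
      ⟪d1 X q, d2 X q⟫_ℝ * (⟪F.n (X q, t), d1 (d2 X) q⟫_ℝ + ⟪F.n (X q, t), d2 (d1 X) q⟫_ℝ) +
        ⟪d1 X q, d1 X q⟫_ℝ * ⟪F.n (X q, t), d2 (d2 X) q⟫_ℝ) := by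
  have h1 := h.tr (fun a b => F.A a b (X q, t)) fun b => h.reg.n_D h.memM _
  simp only [d1, d2, h.A_eq] at h1
  rw [Mv.H, Finset.sum_apply, h1]
  simp only [d1, d2]
  unfold d1 d2
  ring

/-- tangential derivatives from partial derivatives -/
theorem D_eq (hf : DifferentiableWithinAt ℝ f F.M (X q, t)) (a : Fin 3) :
    det X q * F.D a f (X q, t) =
      (⟪d2 X q, d2 X q⟫_ℝ * d1 (fun y => f (X y, t)) q -
        ⟪d1 X q, d2 X q⟫_ℝ * d2 (fun y => f (X y, t)) q) * d1 X q a +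
      (⟪d1 X q, d1 X q⟫_ℝ * d2 (fun y => f (X y, t)) q -
        ⟪d1 X q, d2 X q⟫_ℝ * d1 (fun y => f (X y, t)) q) * d2 X q a := by
  have h1 := vec_eq (d1 X q) (d2 X q) _ (h.reg.inner_n h.memM) (h.perp _) (h.perp _)
    (fun a => F.D a f (X q, t)) (h.reg.n_D h.memM f) a
  simpa only [d1, d2, det, h.fd hf] using h1

theorem gam_eq {g : ST → ℝ} (hf : DifferentiableWithinAt ℝ f F.M (X q, t))
    (hg : DifferentiableWithinAt ℝ g F.M (X q, t)) : det X q * F.gam f g (X q, t) =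
      ⟪d2 X q, d2 X q⟫_ℝ * (d1 (fun y => f (X y, t)) q * d1 (fun y => g (X y, t)) q) -
      ⟪d1 X q, d2 X q⟫_ℝ * (d1 (fun y => f (X y, t)) q * d2 (fun y => g (X y, t)) q +
        d2 (fun y => f (X y, t)) q * d1 (fun y => g (X y, t)) q) +
      ⟪d1 X q, d1 X q⟫_ℝ * (d2 (fun y => f (X y, t)) q * d2 (fun y => g (X y, t)) q) := by
  have h1 := h.tr (fun a b => F.D a f (X q, t) * F.D b g (X q, t)) fun b => by
    simp only [← mul_assoc, ← Finset.sum_mul, h.reg.n_D h.memM f, zero_mul]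
  rw [show F.gam f g (X q, t) = ∑ a, F.D a f (X q, t) * F.D a g (X q, t) by
    simp [N222.Pre.gam], h1]
  simp only [d1, d2, h.fd hf, h.fd hg, bf, Fin.sum_univ_three]
  ring


/-- any normal vector is a multiple of `n` -/
theorem nor {N : E} (h1 : ⟪d1 X q, N⟫_ℝ = 0) (h2 : ⟪d2 X q, N⟫_ℝ = 0) (hd : det X q ≠ 0) :
    N = ⟪F.n (X q, t), N⟫_ℝ • F.n (X q, t) :=
  nor_eq _ _ _ N (h.reg.inner_n h.memM) (h.perp _) (h.perp _) h1 h2 hd

end Par

end Crest.Agent.N250.Po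

end
end

-- ▼ part N250/Po/Pol

/-!
# Row 250, polar graphs (helper27): normal, metric, shrinker equation

`pX Q r (x, θ) = Q (x, r cos θ, r sin θ)`, `v = r² / 2`.
-/

set_option autoImplicit false
open MeasureTheory Set Filter Topology Function
open scoped ContDiff InnerProductSpace
open Crest.GeometryTopology.MCF

noncomputable section

namespace Crest.Agent.N250.Po

/-! ### the jets -/

section Jet

variable {K : Type} [Field K]

/-- the square of the area density -/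
def QQ (v vx vt : K) : K := 2 * v + vx ^ 2 + vt ^ 2 / (2 * v)

/-- the Euler-Lagrange expression of the Gaussian area in the unknown `v = r² / 2` -/
def EL (x v vx vt vxx vxt vtt : K) : K :=
  vxx - x / 2 * vx + v - 1 + vtt / (2 * v) -
    (vx * (2 * vx + 2 * vx * vxx + vt * vxt / v - vt ^ 2 * vx / (2 * v ^ 2)) +
      vt * (2 * vt + 2 * vx * vxt + vt * vtt / v - vt ^ 3 / (2 * v ^ 2)) / (2 * v)) /
      (2 * QQ v vx vt) - vt ^ 2 / (4 * v ^ 2)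

/-- the polynomial form in the unknown `r` -/
def PR (x r rx rt rxx rxt rtt : K) : K :=
  (r ^ 2 + rt ^ 2) * (r * rxx) - 2 * (rx * rt) * (r * rxt - rt * rx) +
    (1 + rx ^ 2) * (r * rtt - r ^ 2 - 2 * rt ^ 2) +
      (r ^ 2 + (r * rx) ^ 2 + rt ^ 2) * (r ^ 2 - x * (r * rx)) / 2

variable [CharZero K]

theorem QQ_r {r : K} (hr : r ≠ 0) (rx rt : K) :
    QQ (r ^ 2 / 2) (r * rx) (r * rt) = r ^ 2 + (r * rx) ^ 2 + rt ^ 2 := by
  unfold QQ
  field_simp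

theorem EL_r {r rx rt : K} (hr : r ≠ 0) (hQ : r ^ 2 + (r * rx) ^ 2 + rt ^ 2 ≠ 0)
    (x rxx rxt rtt : K) :
    EL x (r ^ 2 / 2) (r * rx) (r * rt) (r * rxx + rx * rx) (r * rxt + rx * rt) (r * rtt + rt * rt) *
      (r ^ 2 + (r * rx) ^ 2 + rt ^ 2) = PR x r rx rt rxx rxt rtt := by
  have e : ∀ A B C D : K, D ≠ 0 → (A - B / (2 * D) - C) * D = (A - C) * D - B / 2 :=
    fun A B C D hD => by field_simp; ring
  unfold EL PR
  rw [QQ_r hr, e _ _ _ _ hQ]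
  field_simp
  ring

end Jet

/-! ### the frame -/

/-- `a e₀ + b ω(θ) + c ω'(θ)` -/
def fr (Q : E ≃ₗᵢ[ℝ] E) (θ a b c : ℝ) : E :=
  Q !₂[a, b * Real.cos θ - c * Real.sin θ, b * Real.sin θ + c * Real.cos θ]

/-- the polar graph -/
def pX (Q : E ≃ₗᵢ[ℝ] E) (r : ℝ × ℝ → ℝ) (q : ℝ × ℝ) : E := Q (cylP q.1 (r q) q.2)

variable {Q : E ≃ₗᵢ[ℝ] E} {θ : ℝ}

theorem pX_eq (r : ℝ × ℝ → ℝ) (q : ℝ × ℝ) : pX Q r q = fr Q q.2 q.1 (r q) 0 := by
  simp [pX, fr, cylP]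

theorem inner_fr (a b c a' b' c' : ℝ) :
    ⟪fr Q θ a b c, fr Q θ a' b' c'⟫_ℝ = a * a' + b * b' + c * c' := by
  rw [fr, fr, Q.inner_map_map, inner_eq_sum]
  simp only [Fin.sum_univ_three, Fin.isValue, Matrix.cons_val_zero, Matrix.cons_val_one,
    Matrix.cons_val]
  linear_combination (b * b' + c * c') * Real.sin_sq_add_cos_sq θ

theorem fr_eq (a b c : ℝ) : fr Q θ a b c = a • Q (ee 0) +
    (b * Real.cos θ - c * Real.sin θ) • Q (ee 1) + (b * Real.sin θ + c * Real.cos θ) • Q (ee 2) := by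
  rw [fr, ← map_smul, ← map_smul, ← map_smul, ← map_add, ← map_add]
  congr 1
  ext i
  fin_cases i <;> simp

theorem smul_fr (s a b c : ℝ) : s • fr Q θ a b c = fr Q θ (s * a) (s * b) (s * c) := by
  simp only [fr_eq, smul_add, smul_smul]
  congr 2
  · congr 1; ring
  · ring

theorem fderiv_fr {a b c : ℝ × ℝ → ℝ} {q : ℝ × ℝ} (ha : DifferentiableAt ℝ a q)
    (hb : DifferentiableAt ℝ b q) (hc : DifferentiableAt ℝ c q) :
    DifferentiableAt ℝ (fun y => fr Q y.2 (a y) (b y) (c y)) q ∧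
    ∀ w, fderiv ℝ (fun y => fr Q y.2 (a y) (b y) (c y)) q w =
      fr Q q.2 (fderiv ℝ a q w) (fderiv ℝ b q w - c q * w.2) (fderiv ℝ c q w + b q * w.2) := by
  have h1 : HasFDerivAt (fun y : ℝ × ℝ => Real.cos y.2) _ q := hasFDerivAt_snd.cos
  have h2 : HasFDerivAt (fun y : ℝ × ℝ => Real.sin y.2) _ q := hasFDerivAt_snd.sin
  have h := ((ha.hasFDerivAt.smul_const (Q (ee 0))).fun_add
    (((hb.hasFDerivAt.fun_mul h1).fun_sub (hc.hasFDerivAt.fun_mul h2)).smul_const (Q (ee 1)))).fun_add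
    (((hb.hasFDerivAt.fun_mul h2).fun_add (hc.hasFDerivAt.fun_mul h1)).smul_const (Q (ee 2)))
  simp only [fr_eq]
  refine ⟨h.differentiableAt, fun w => ?_⟩
  rw [h.fderiv]
  simp only [add_apply, ContinuousLinearMap.smulRight_apply, sub_apply, smul_apply, smul_eq_mul,
    ContinuousLinearMap.coe_snd']
  congr 2
  · congr 1; ring
  · ring

theorem contDiffAt_pX {n : WithTop ℕ∞} {r : ℝ × ℝ → ℝ} {q : ℝ × ℝ} (hr : ContDiffAt ℝ n r q) :
    ContDiffAt ℝ n (pX Q r) q := by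
  have : pX Q r = fun y => y.1 • Q (ee 0) + (r y * Real.cos y.2) • Q (ee 1) +
      (r y * Real.sin y.2) • Q (ee 2) := by
    funext y; simp [pX_eq, fr_eq]
  rw [this]
  exact ((contDiffAt_fst.smul contDiffAt_const).add ((hr.mul contDiffAt_snd.cos).smul
    contDiffAt_const)).add ((hr.mul contDiffAt_snd.sin).smul contDiffAt_const)

section Der

variable {r v : ℝ × ℝ → ℝ} {q : ℝ × ℝ}

theorem fd_pX (hr : DifferentiableAt ℝ r q) (w : ℝ × ℝ) :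
    fderiv ℝ (pX Q r) q w = fr Q q.2 w.1 (fderiv ℝ r q w) (r q * w.2) := by
  have := (fderiv_fr (Q := Q) (a := fun y => y.1) (c := fun _ => 0) differentiableAt_fst hr
    (differentiableAt_const _)).2 w
  rw [funext (pX_eq r), this]
  simp [fderiv_fst]

theorem ev_diff (hr : ContDiffAt ℝ 2 r q) : ∀ᶠ y in 𝓝 q, DifferentiableAt ℝ r y :=
  (hr.eventually (by simp)).mono fun _ hy => hy.differentiableAt (by simp)

theorem diff_fd {G : Type} [NormedAddCommGroup G] [NormedSpace ℝ G] {g : ℝ × ℝ → G}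
    (hg : ContDiffAt ℝ 2 g q) (w : ℝ × ℝ) : DifferentiableAt ℝ (fun y => fderiv ℝ g y w) q :=
  ((hg.fderiv_right (m := 1) le_rfl).differentiableAt one_ne_zero).clm_apply
    (differentiableAt_const w)

theorem fd_fd {G : Type} [NormedAddCommGroup G] [NormedSpace ℝ G] {g : ℝ × ℝ → G}
    (hg : ContDiffAt ℝ 2 g q) (w' w : ℝ × ℝ) :
    fderiv ℝ (fun y => fderiv ℝ g y w) q w' = fderiv ℝ (fderiv ℝ g) q w' w := by
  rw [fderiv_clm_apply ((hg.fderiv_right (m := 1) le_rfl).differentiableAt one_ne_zero)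
    (differentiableAt_const w)]
  simp

theorem d21 {G : Type} [NormedAddCommGroup G] [NormedSpace ℝ G] {g : ℝ × ℝ → G}
    (hg : ContDiffAt ℝ 2 g q) : d2 (d1 g) q = d1 (d2 g) q := by
  unfold d1 d2
  rw [fd_fd hg, fd_fd hg]
  exact (hg.isSymmSndFDerivAt (by simp)).eq _ _

theorem fd2_pX (hr : ContDiffAt ℝ 2 r q) (w' w : ℝ × ℝ) :
    fderiv ℝ (fun y => fderiv ℝ (pX Q r) y w) q w' =
      fr Q q.2 0 (fderiv ℝ (fun y => fderiv ℝ r y w) q w' - r q * w.2 * w'.2)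
        (fderiv ℝ r q w' * w.2 + fderiv ℝ r q w * w'.2) := by
  have h0 := hr.differentiableAt (by simp)
  have h1 : (fun y => fderiv ℝ (pX Q r) y w) =ᶠ[𝓝 q]
      fun y => fr Q y.2 w.1 (fderiv ℝ r y w) (r y * w.2) :=
    (ev_diff hr).mono fun y hy => fd_pX hy w
  rw [h1.fderiv_eq, (fderiv_fr (differentiableAt_const _) (diff_fd hr w) (h0.mul_const _)).2,
    fderiv_mul_const h0]
  simp [mul_comm]

theorem fd_v (hr : DifferentiableAt ℝ r q) (hv : ∀ᶠ y in 𝓝 q, v y = r y ^ 2 / 2) (w : ℝ × ℝ) :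
    fderiv ℝ v q w = r q * fderiv ℝ r q w := by
  have h := (hr.hasFDerivAt.fun_mul hr.hasFDerivAt).mul_const (1 / 2)
  have h' : v =ᶠ[𝓝 q] fun y => r y * r y * (1 / 2) := hv.mono fun y hy => by rw [hy]; ring
  rw [h'.fderiv_eq, h.fderiv]
  simp only [smul_apply, add_apply, smul_eq_mul]
  ring

theorem fd2_v (hr : ContDiffAt ℝ 2 r q) (hv : ∀ᶠ y in 𝓝 q, v y = r y ^ 2 / 2) (w' w : ℝ × ℝ) :
    fderiv ℝ (fun y => fderiv ℝ v y w) q w' =
      r q * fderiv ℝ (fun y => fderiv ℝ r y w) q w' + fderiv ℝ r q w' * fderiv ℝ r q w := by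
  have h1 : (fun y => fderiv ℝ v y w) =ᶠ[𝓝 q] fun y => r y * fderiv ℝ r y w := by
    filter_upwards [ev_diff hr, hv.eventually_nhds] with y h1 h2 using fd_v h1 h2 w
  rw [h1.fderiv_eq, fderiv_fun_mul (hr.differentiableAt (by simp)) (diff_fd hr w)]
  simp only [smul_apply, add_apply, smul_eq_mul]
  ring

end Der

/-! ### polar pieces of a slice -/

/-- near `q` the polar graph of `r` lies in the slice `t`; `v = r² / 2` -/
structure Pol (F : Mv) (t : ℝ) (Q : E ≃ₗᵢ[ℝ] E) (r v : ℝ × ℝ → ℝ) (q : ℝ × ℝ) : Prop where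
  reg : F.Reg
  sm : ContDiffAt ℝ 2 r q
  pos : 0 < r q
  veq : ∀ᶠ y in 𝓝 q, v y = r y ^ 2 / 2
  mem : ∀ᶠ y in 𝓝 q, (pX Q r y, t) ∈ F.M

/-- `Q = 2 v + v_x² + v_θ² / (2 v)` -/
def Qv (v : ℝ × ℝ → ℝ) (q : ℝ × ℝ) : ℝ := QQ (v q) (d1 v q) (d2 v q)

/-- the Euler-Lagrange expression of a function -/
def ELv (v : ℝ × ℝ → ℝ) (q : ℝ × ℝ) : ℝ :=
  EL q.1 (v q) (d1 v q) (d2 v q) (d1 (d1 v) q) (d1 (d2 v) q) (d2 (d2 v) q)

/-- the outer normal vector of length `√Q` -/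
def NN (Q : E ≃ₗᵢ[ℝ] E) (r : ℝ × ℝ → ℝ) (q : ℝ × ℝ) : E :=
  fr Q q.2 (-(r q * d1 r q)) (r q) (-d2 r q)

/-- the orientation sign -/
def sg (F : Mv) (t : ℝ) (Q : E ≃ₗᵢ[ℝ] E) (r : ℝ × ℝ → ℝ) (q : ℝ × ℝ) : ℝ :=
  ⟪F.n (pX Q r q, t), NN Q r q⟫_ℝ / ‖NN Q r q‖

/-- from `v` -/
theorem pol_of_v {F : Mv} {t : ℝ} {v : ℝ × ℝ → ℝ} {q : ℝ × ℝ} (hF : F.Reg)
    (hv : ContDiffAt ℝ 2 v q) (h0 : 0 < v q)
    (hm : ∀ᶠ y in 𝓝 q, (pX Q (fun y => √(2 * v y)) y, t) ∈ F.M) :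
    Pol F t Q (fun y => √(2 * v y)) v q := by
  refine ⟨hF, (contDiffAt_const.mul hv).sqrt (by positivity), by positivity, ?_, hm⟩
  filter_upwards [hv.continuousAt.eventually (lt_mem_nhds h0)] with y hy
  rw [Real.sq_sqrt (by positivity)]; ring

namespace Pol

variable {F : Mv} {t : ℝ} {r v : ℝ × ℝ → ℝ} {q : ℝ × ℝ} (h : Pol F t Q r v q)
include h

theorem par : Par F t (pX Q r) q := ⟨h.reg, contDiffAt_pX h.sm, h.mem⟩

theorem ev : ∀ᶠ y in 𝓝 q, Pol F t Q r v y := by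
  filter_upwards [h.sm.eventually (by simp), h.sm.continuousAt.eventually (lt_mem_nhds h.pos),
    h.veq.eventually_nhds, h.mem.eventually_nhds] with y h1 h2 h3 h4
  exact ⟨h.reg, h1, h2, h3, h4⟩

theorem diff : DifferentiableAt ℝ r q := h.sm.differentiableAt (by simp)

theorem v_eq : v q = r q ^ 2 / 2 := h.veq.self_of_nhds
theorem v1 : d1 v q = r q * d1 r q := fd_v h.diff h.veq _
theorem v2 : d2 v q = r q * d2 r q := fd_v h.diff h.veq _
theorem v11 : d1 (d1 v) q = r q * d1 (d1 r) q + d1 r q * d1 r q := fd2_v h.sm h.veq _ _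
theorem v12 : d1 (d2 v) q = r q * d1 (d2 r) q + d1 r q * d2 r q := fd2_v h.sm h.veq _ _
theorem v22 : d2 (d2 v) q = r q * d2 (d2 r) q + d2 r q * d2 r q := fd2_v h.sm h.veq _ _

theorem X1 : d1 (pX Q r) q = fr Q q.2 1 (d1 r q) 0 := by rw [d1, fd_pX h.diff]; simp [d1]
theorem X2 : d2 (pX Q r) q = fr Q q.2 0 (d2 r q) (r q) := by rw [d2, fd_pX h.diff]; simp [d2]
theorem X11 : d1 (d1 (pX Q r)) q = fr Q q.2 0 (d1 (d1 r) q) 0 := by
  unfold d1; rw [fd2_pX h.sm]; simp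
theorem X12 : d1 (d2 (pX Q r)) q = fr Q q.2 0 (d1 (d2 r) q) (d1 r q) := by
  unfold d1 d2; rw [fd2_pX h.sm]; simp
theorem X21 : d2 (d1 (pX Q r)) q = fr Q q.2 0 (d1 (d2 r) q) (d1 r q) := by
  rw [d21 h.par.sm, h.X12]
theorem X22 : d2 (d2 (pX Q r)) q = fr Q q.2 0 (d2 (d2 r) q - r q) (2 * d2 r q) := by
  unfold d2; rw [fd2_pX h.sm]; simp [two_mul]

theorem Qv_eq : Qv v q = r q ^ 2 + (r q * d1 r q) ^ 2 + d2 r q ^ 2 := by
  rw [Qv, h.v_eq, h.v1, h.v2, QQ_r h.pos.ne']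

theorem Qv_pos : 0 < Qv v q := by
  rw [h.Qv_eq]; have := h.pos; positivity

theorem g11 : ⟪d1 (pX Q r) q, d1 (pX Q r) q⟫_ℝ = 1 + d1 r q ^ 2 := by
  rw [h.X1, inner_fr]; ring
theorem g12 : ⟪d1 (pX Q r) q, d2 (pX Q r) q⟫_ℝ = d1 r q * d2 r q := by
  rw [h.X1, h.X2, inner_fr]; ring
theorem g22 : ⟪d2 (pX Q r) q, d2 (pX Q r) q⟫_ℝ = r q ^ 2 + d2 r q ^ 2 := by
  rw [h.X2, inner_fr]; ring

theorem det_eq : det (pX Q r) q = Qv v q := by
  rw [det, h.g11, h.g12, h.g22, h.Qv_eq]; ring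

theorem norm_NN : ‖NN Q r q‖ = √(Qv v q) := by
  rw [← Real.sqrt_sq (norm_nonneg _), ← real_inner_self_eq_norm_sq, NN, inner_fr, h.Qv_eq]
  congr 1; ring

theorem NN_eq : NN Q r q = (sg F t Q r q * √(Qv v q)) • F.n (pX Q r q, t) := by
  rw [sg, h.norm_NN, div_mul_cancel₀ _ (Real.sqrt_pos.2 h.Qv_pos).ne']
  refine h.par.nor ?_ ?_ (h.det_eq ▸ h.Qv_pos.ne')
  · rw [h.X1, NN, inner_fr]; ring
  · rw [h.X2, NN, inner_fr]; ring

theorem sg_sq : sg F t Q r q ^ 2 = 1 := by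
  have h1 := congrArg norm h.NN_eq
  have h2 := Real.sqrt_pos.2 h.Qv_pos
  rw [norm_smul, h.reg.norm_n h.par.memM, h.norm_NN, mul_one, Real.norm_eq_abs, abs_mul,
    abs_of_pos h2] at h1
  rw [← sq_abs, (mul_left_inj' h2.ne').1 ((one_mul _).trans h1).symm, one_pow]


/-- the unit normal -/
theorem n_eq : F.n (pX Q r q, t) = (sg F t Q r q / √(Qv v q)) • NN Q r q := by
  have h2 := Real.sqrt_pos.2 h.Qv_pos
  conv_rhs => rw [h.NN_eq, smul_smul]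
  rw [show sg F t Q r q / √(Qv v q) * (sg F t Q r q * √(Qv v q)) = sg F t Q r q ^ 2 by
    field_simp, h.sg_sq, one_smul]

theorem inner_n (a b c : ℝ) : ⟪F.n (pX Q r q, t), fr Q q.2 a b c⟫_ℝ * √(Qv v q) =
    sg F t Q r q * (r q * b - r q * d1 r q * a - d2 r q * c) := by
  have h2 := Real.sqrt_pos.2 h.Qv_pos
  rw [h.n_eq, inner_smul_left, NN, inner_fr]
  simp only [conj_trivial]
  field_simp
  ring

/-- mean curvature -/
theorem H_eq : F.H (pX Q r q, t) * (Qv v q * √(Qv v q)) = -sg F t Q r q *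
    ((r q ^ 2 + d2 r q ^ 2) * (r q * d1 (d1 r) q) -
      2 * (d1 r q * d2 r q) * (r q * d1 (d2 r) q - d2 r q * d1 r q) +
      (1 + d1 r q ^ 2) * (r q * d2 (d2 r) q - r q ^ 2 - 2 * d2 r q ^ 2)) := by
  have h1 := h.par.H_eq
  rw [h.det_eq, h.g11, h.g12, h.g22, h.X11, h.X12, h.X21, h.X22] at h1
  linear_combination √(Qv v q) * h1 - (r q ^ 2 + d2 r q ^ 2) * h.inner_n 0 (d1 (d1 r) q) 0 +
    2 * (d1 r q * d2 r q) * h.inner_n 0 (d1 (d2 r) q) (d1 r q) -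
    (1 + d1 r q ^ 2) * h.inner_n 0 (d2 (d2 r) q - r q) (2 * d2 r q)

theorem xn_eq : F.xn 0 (pX Q r q, t) * √(Qv v q) =
    sg F t Q r q * (r q ^ 2 - q.1 * (r q * d1 r q)) := by
  have := h.inner_n q.1 (r q) 0
  rw [← pX_eq] at this
  rw [Mv.xn, sub_zero, real_inner_comm, this]
  ring

/-- the shrinker expression, polynomial form in `r` -/
theorem shr_r : F.shr (pX Q r q, t) * (Qv v q * √(Qv v q)) = -sg F t Q r q *
    PR q.1 (r q) (d1 r q) (d2 r q) (d1 (d1 r) q) (d1 (d2 r) q) (d2 (d2 r) q) := by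
  rw [Mv.shr, PR, ← h.Qv_eq]
  linear_combination h.H_eq - Qv v q / 2 * h.xn_eq

/-- **the shrinker expression is the Euler-Lagrange expression** -/
theorem shr_eq : F.shr (pX Q r q, t) * √(Qv v q) = -sg F t Q r q * ELv v q := by
  have h1 := EL_r h.pos.ne' (h.Qv_eq ▸ h.Qv_pos.ne') q.1 (d1 (d1 r) q) (d1 (d2 r) q) (d2 (d2 r) q)
  rw [← h.v_eq, ← h.v11, ← h.v12, ← h.v22, ← h.Qv_eq, ← h.v1, ← h.v2] at h1
  refine mul_right_cancel₀ h.Qv_pos.ne' ?_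
  rw [ELv]
  linear_combination h.shr_r + sg F t Q r q * h1

theorem shr_eq_zero_iff : F.shr (pX Q r q, t) = 0 ↔ ELv v q = 0 := by
  have h1 := h.shr_eq
  have h2 := Real.sqrt_pos.2 h.Qv_pos
  have h3 : sg F t Q r q ≠ 0 := fun h0 => by simpa [h0] using h.sg_sq
  constructor
  · intro h0
    rw [h0, zero_mul] at h1
    exact (mul_eq_zero.1 h1.symm).resolve_left (neg_ne_zero.2 h3)
  · intro h0
    rw [h0, mul_zero] at h1
    exact (mul_eq_zero.1 h1).resolve_right h2.ne'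


variable {f g : ST → ℝ}



/-- tangential derivatives from partial derivatives -/
theorem D_eq (hf : DifferentiableWithinAt ℝ f F.M (pX Q r q, t)) (a : Fin 3) :
    Qv v q * F.D a f (pX Q r q, t) =
      ((r q ^ 2 + d2 r q ^ 2) * d1 (fun y => f (pX Q r y, t)) q -
        d1 r q * d2 r q * d2 (fun y => f (pX Q r y, t)) q) * fr Q q.2 1 (d1 r q) 0 a +
      ((1 + d1 r q ^ 2) * d2 (fun y => f (pX Q r y, t)) q -
        d1 r q * d2 r q * d1 (fun y => f (pX Q r y, t)) q) * fr Q q.2 0 (d2 r q) (r q) a := by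
  have := h.par.D_eq hf a
  rwa [h.det_eq, h.g11, h.g12, h.g22, h.X1, h.X2] at this

theorem gam_eq (hf : DifferentiableWithinAt ℝ f F.M (pX Q r q, t))
    (hg : DifferentiableWithinAt ℝ g F.M (pX Q r q, t)) : Qv v q * F.gam f g (pX Q r q, t) =
      (r q ^ 2 + d2 r q ^ 2) *
        (d1 (fun y => f (pX Q r y, t)) q * d1 (fun y => g (pX Q r y, t)) q) -
      d1 r q * d2 r q * (d1 (fun y => f (pX Q r y, t)) q * d2 (fun y => g (pX Q r y, t)) q +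
        d2 (fun y => f (pX Q r y, t)) q * d1 (fun y => g (pX Q r y, t)) q) +
      (1 + d1 r q ^ 2) * (d2 (fun y => f (pX Q r y, t)) q * d2 (fun y => g (pX Q r y, t)) q) := by
  have := h.par.gam_eq hf hg
  rwa [h.det_eq, h.g11, h.g12, h.g22] at this

end Pol

/-! ### the ends of a shrinker -/

theorem cylP_mem_cone {ε s r θ : ℝ} (h0 : 0 ≤ r) (h : r ≤ ε * s) : cylP s r θ ∈ cone0 ε := by
  have : (r * Real.cos θ) ^ 2 + (r * Real.sin θ) ^ 2 = r ^ 2 := by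
    linear_combination r ^ 2 * Real.sin_sq_add_cos_sq θ
  simpa [cone0, cylP, this, Real.sqrt_sq h0] using h

theorem ends_mem {S : Mv} (e : Ends S) (j : Fin e.p) {q : ℝ × ℝ} (hq : e.R < q.1) :
    (pX (e.Q j) (e.r j) q, 0) ∈ S.M := by
  obtain ⟨h1, h2⟩ := e.near j q hq
  have h3 : e.r j q ≤ e.ε * q.1 := by nlinarith [e.R_ge, e.ε_pos]
  exact (e.tube j _ (cylP_mem_cone (by linarith) h3) hq).2 ⟨q.2, rfl⟩

theorem ends_pol {S : Mv} (hS : S.Reg) (e : Ends S) (j : Fin e.p) {q : ℝ × ℝ} (hq : e.R < q.1) :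
    Pol S 0 (e.Q j) (e.r j) (fun y => e.r j y ^ 2 / 2) q := by
  have hU : {q : ℝ × ℝ | e.R < q.1} ∈ 𝓝 q := (isOpen_lt continuous_const continuous_fst).mem_nhds hq
  exact ⟨hS, ((e.sm j).contDiffAt hU).of_le (WithTop.coe_le_coe.2 (le_top (a := (2 : ℕ∞)))),
    one_pos.trans (e.near j q hq).1, Eventually.of_forall fun _ => rfl,
    mem_of_superset hU fun y hy => ends_mem e j hy⟩

/-- **the end of a shrinker solves the polar equation** -/
theorem ends_EL {S : Mv} (hS : S.IsShr) (e : Ends S) (j : Fin e.p) {q : ℝ × ℝ} (hq : e.R < q.1) :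
    ELv (fun y => e.r j y ^ 2 / 2) q = 0 :=
  (ends_pol hS.reg e j hq).shr_eq_zero_iff.1 (hS.eq _ (ends_mem e j hq))

end Crest.Agent.N250.Po

end
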